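import Vale.Agent.P321.R4.H101.Spec

/-! # R3: the critical slip with an explicit threshold -/

namespace Vale.Agent.P321.R4.H504

open Finset
open Vale.Agent.P321.Lt
open Vale.Agent.P321.R4.H101
open Vale.Agent.P321.MA (ev le Prob push restr Dom)

theorem Pq_ge_one {M : ℕ} (hM : 1 ≤ M) {q : ℝ} (h0 : 0 < q) (h1 : q ≤ 1 / 2) : 1 ≤ Pq M q := by
  refine one_le_pow₀ ?_
  rw [le_div_iff₀ h0]
  have : (1 : ℝ) ≤ M := by exact_mod_cast hM
  linarith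

/-- the new constant dominates the old ones -/
theorem Pq_big {M : ℕ} (hM : 1 ≤ M) {q : ℝ} (h0 : 0 < q) (h1 : q ≤ 1 / 2) :
    (81920 / q ^ 2 + 2) * (8 * Pq M q) ^ 8 ≤ Pq (8 * M + 100) q := by
  have hM' : (1 : ℝ) ≤ M := by exact_mod_cast hM
  have hr : (1 : ℝ) ≤ ((8 * M + 100 : ℕ) : ℝ) / q := by
    rw [le_div_iff₀ h0]; push_cast; linarith
  have hq1 : q ≤ 1 := by linarith
  have hinv : 1 ≤ 1 / q := by rw [le_div_iff₀ h0]; linarith
  have e1 : Pq (8 * M + 100) q ≥ (((8 * M + 100 : ℕ) : ℝ) / q) ^ (M * 8 + 10) := by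
    unfold Pq
    exact pow_le_pow_right₀ hr (by omega)
  have e2 : (((8 * M + 100 : ℕ) : ℝ) / q) ^ (M * 8 + 10)
      = (((8 * M + 100 : ℕ) : ℝ) / q) ^ (M * 8) * (((8 * M + 100 : ℕ) : ℝ) / q) ^ 10 := by
    rw [pow_add]
  have e3 : (Pq M q) ^ 8 ≤ (((8 * M + 100 : ℕ) : ℝ) / q) ^ (M * 8) := by
    unfold Pq
    rw [← pow_mul]
    refine pow_le_pow_left₀ (by positivity) ?_ _
    gcongr
    push_cast
    linarith
  have e4 : (100 / q) ^ 10 ≤ (((8 * M + 100 : ℕ) : ℝ) / q) ^ 10 := by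
    refine pow_le_pow_left₀ (by positivity) ?_ _
    gcongr
    push_cast
    linarith
  have e5 : (81920 / q ^ 2 + 2) * 8 ^ 8 ≤ (100 / q) ^ 10 := by
    have h2 : (1 / q) ^ 2 ≤ (1 / q) ^ 10 := pow_le_pow_right₀ hinv (by norm_num)
    have h3 : (1 : ℝ) ≤ (1 / q) ^ 10 := one_le_pow₀ hinv
    have h4 : (100 / q) ^ 10 = 10 ^ 20 * (1 / q) ^ 10 := by
      rw [div_pow, div_pow, one_pow]; norm_num; ring
    have h5 : 81920 / q ^ 2 = 81920 * (1 / q) ^ 2 := by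
      rw [div_pow, one_pow]; ring
    rw [h4, h5]
    nlinarith only [h2, h3]
  have hP0 : 0 ≤ Pq M q := le_trans zero_le_one (Pq_ge_one hM h0 h1)
  calc (81920 / q ^ 2 + 2) * (8 * Pq M q) ^ 8
      = ((81920 / q ^ 2 + 2) * 8 ^ 8) * (Pq M q) ^ 8 := by rw [mul_pow]; ring
    _ ≤ (((8 * M + 100 : ℕ) : ℝ) / q) ^ 10 * (((8 * M + 100 : ℕ) : ℝ) / q) ^ (M * 8) := by
        refine mul_le_mul (e5.trans e4) e3 (by positivity) (by positivity)
    _ = (((8 * M + 100 : ℕ) : ℝ) / q) ^ (M * 8 + 10) := by rw [e2]; ring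
    _ ≤ _ := e1

/-- the threshold conditions -/
theorem thresholds {P D x s : ℝ} {L : ℝ} (hP : 1 ≤ P) (hD : 2 ≤ D) (hL : 0 < L)
    (hx : x = Real.log L) (h : (D + 2) * (8 * P) ^ 8 ≤ x) (hs : s = D / x + 2 / L) :
    P * s ^ (1 / 8 : ℝ) + P / Real.sqrt (D * (Real.sqrt L / 2)) ≤ 1 / 4 ∧ s < 1 ∧
      0 < x ∧ 16384 ≤ x ∧ x ≤ L := by
  have h8 : (1 : ℝ) ≤ (8 * P) ^ 8 := one_le_pow₀ (by linarith)
  have h8' : (16777216 : ℝ) ≤ (8 * P) ^ 8 := by
    calc (16777216 : ℝ) = 8 ^ 8 := by norm_num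
      _ ≤ (8 * P) ^ 8 := pow_le_pow_left₀ (by norm_num) (by linarith) _
  have hx4 : 4 * (8 * P) ^ 8 ≤ x := le_trans (by gcongr; linarith) h
  have hx0 : 0 < x := by linarith
  have hxL : x ≤ L := by
    rw [hx]
    have := Real.log_le_sub_one_of_pos hL
    linarith
  have hs1 : s ≤ (D + 2) / x := by
    rw [hs, add_div]
    gcongr
  have hs0 : 0 ≤ s := by rw [hs]; positivity
  have hs2 : s ≤ 1 / (8 * P) ^ 8 := by
    refine hs1.trans ?_
    rw [div_le_div_iff₀ hx0 (by linarith)]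
    linarith
  have hs3 : s ^ (1 / 8 : ℝ) ≤ 1 / (8 * P) := by
    have h1 : s ^ (1 / 8 : ℝ) ≤ (1 / (8 * P) ^ 8) ^ (1 / 8 : ℝ) :=
      Real.rpow_le_rpow hs0 hs2 (by norm_num)
    have h2 : (1 / (8 * P) ^ 8) ^ (1 / 8 : ℝ) = 1 / (8 * P) := by
      rw [show (1 / (8 * P) ^ 8) = (1 / (8 * P)) ^ (8 : ℕ) by rw [div_pow, one_pow],
        ← Real.rpow_natCast (1 / (8 * P)) 8, ← Real.rpow_mul (by positivity)]
      norm_num
    rw [h2] at h1
    exact h1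
  have ht1 : P * s ^ (1 / 8 : ℝ) ≤ 1 / 8 := by
    calc P * s ^ (1 / 8 : ℝ) ≤ P * (1 / (8 * P)) := by gcongr
      _ = 1 / 8 := by field_simp
  have hsq : (8 * P) ^ 2 ≤ D * (Real.sqrt L / 2) := by
    have h1 : (8 * P) ^ 4 ≤ Real.sqrt L := by
      refine Real.le_sqrt_of_sq_le ?_
      calc ((8 * P) ^ 4) ^ 2 = (8 * P) ^ 8 := by ring
        _ ≤ x := by linarith
        _ ≤ L := hxL
    have h2 : (8 * P) ^ 2 ≤ (8 * P) ^ 4 := pow_le_pow_right₀ (by linarith) (by norm_num)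
    have h3 : 0 ≤ Real.sqrt L := Real.sqrt_nonneg _
    nlinarith only [h1, h2, h3, hD]
  have hsq2 : 8 * P ≤ Real.sqrt (D * (Real.sqrt L / 2)) := Real.le_sqrt_of_sq_le hsq
  have ht2 : P / Real.sqrt (D * (Real.sqrt L / 2)) ≤ 1 / 8 := by
    rw [div_le_div_iff₀ (by linarith) (by norm_num)]
    linarith
  refine ⟨by linarith, ?_, hx0, by linarith, hxL⟩
  refine lt_of_le_of_lt hs2 ?_
  rw [div_lt_one (by linarith)]
  linarith

theorem stOver (hcore : StCore) : StOver := by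
  obtain ⟨M, hM, hcore⟩ := hcore
  refine ⟨8 * M + 100, by omega, fun q hq0 hq1 L hLx => ?_⟩
  have hP := Pq_ge_one hM hq0 hq1
  set C : ℝ := Pq M q with hC
  have hC0 : 0 < C := by linarith
  set D : ℝ := 81920 / q ^ 2 with hD
  have hq2 : q ^ 2 ≤ 1 / 4 := by nlinarith only [hq0, hq1]
  have hq2p : 0 < q ^ 2 := by positivity
  have hD2 : 2 ≤ D := by
    rw [hD, le_div_iff₀ hq2p]; linarith
  have hD0 : 0 < D := by linarith
  have hbig : (D + 2) * (8 * C) ^ 8 ≤ Real.log L := (Pq_big hM hq0 hq1).trans hLx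
  have hL0 : (0 : ℝ) < L := by
    rcases Nat.eq_zero_or_pos L with rfl | h
    · exfalso
      have h1 : 0 < (D + 2) * (8 * C) ^ 8 := by positivity
      simp only [Nat.cast_zero, Real.log_zero] at hbig
      linarith
    · exact_mod_cast h
  obtain ⟨e1, e2, e4, e6, -⟩ := thresholds (s := D / Real.log L + 2 / L) hP hD2 hL0 rfl hbig rfl
  have e3 : (2 : ℝ) ≤ (L : ℝ) ^ ((1 / 4096 : ℝ) / 2) := by
    rw [Real.rpow_def_of_pos hL0]
    have h1 := Real.add_one_le_exp (Real.log L * ((1 / 4096 : ℝ) / 2))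
    linarith
  have hy0 : 0 < D * L / Real.log L := by positivity
  set K : ℕ := ⌈D * L / Real.log L⌉₊ with hK
  have hK1 : 1 ≤ K := Nat.ceil_pos.mpr hy0
  have hKR : (1 : ℝ) ≤ K := by exact_mod_cast hK1
  have hKlow : D * L / Real.log L ≤ K := Nat.le_ceil _
  have hKup : (K : ℝ) < D * L / Real.log L + 1 := Nat.ceil_lt_add_one hy0.le
  have hKL : ((K + 1 : ℕ) : ℝ) / L ≤ D / Real.log L + 2 / L := by
    rw [div_le_iff₀ hL0]
    have : (D / Real.log L + 2 / L) * L = D * L / Real.log L + 2 := by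
      field_simp
    rw [this]
    push_cast
    linarith only [hKup]
  have hKL' : K + 1 ≤ L := by
    have h1 : ((K + 1 : ℕ) : ℝ) / L < 1 := lt_of_le_of_lt hKL e2
    rw [div_lt_one hL0] at h1
    exact_mod_cast h1.le
  have hsqrt : Real.sqrt (D * (Real.sqrt (L : ℝ) / 2)) ≤ Real.sqrt K := by
    refine Real.sqrt_le_sqrt (le_trans ?_ hKlow)
    rw [le_div_iff₀ e4]
    have hsL : 0 < Real.sqrt (L : ℝ) := Real.sqrt_pos.mpr hL0
    have h1 : Real.log (L : ℝ) ≤ 2 * Real.sqrt L := by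
      have h2 : Real.log (Real.sqrt (L : ℝ)) ≤ Real.sqrt L - 1 := Real.log_le_sub_one_of_pos hsL
      rw [Real.log_sqrt hL0.le] at h2
      linarith only [h2]
    have h3 : Real.sqrt (L : ℝ) * Real.sqrt L = L := Real.mul_self_sqrt hL0.le
    calc D * (Real.sqrt (L : ℝ) / 2) * Real.log L
        ≤ D * (Real.sqrt (L : ℝ) / 2) * (2 * Real.sqrt L) := by gcongr
      _ = D * (Real.sqrt (L : ℝ) * Real.sqrt L) := by ring
      _ = D * L := by rw [h3]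
  have hsmall : C * (((K + 1 : ℕ) : ℝ) / L) ^ (1 / 8 : ℝ) + C / Real.sqrt K ≤ 1 / 4 := by
    have h1 : (((K + 1 : ℕ) : ℝ) / L) ^ (1 / 8 : ℝ) ≤ (D / Real.log L + 2 / L) ^ (1 / 8 : ℝ) :=
      Real.rpow_le_rpow (by positivity) hKL (by norm_num)
    have h2 : C / Real.sqrt K ≤ C / Real.sqrt (D * (Real.sqrt (L : ℝ) / 2)) :=
      div_le_div_of_nonneg_left hC0.le (Real.sqrt_pos.mpr (by positivity)) hsqrt
    have h3 := mul_le_mul_of_nonneg_left h1 hC0.le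
    linarith only [e1, h2, h3]
  obtain ⟨h, h1, h2, h3, h4⟩ := hcore q hq0 hq1 K L hK1 hKL' hsmall
  refine ⟨K, h, by omega, h1, h2, h3, le_trans ?_ h4⟩
  have hx : (10 / q ^ 2) * ((L : ℝ) / K) ≤ ((1 / 4096 : ℝ) / 2) * Real.log L := by
    have h5 : (L : ℝ) / K ≤ Real.log L / D := by
      rw [div_le_div_iff₀ (by linarith only [hKR]) hD0]
      rw [div_le_iff₀ e4] at hKlow
      linarith only [hKlow]
    calc (10 / q ^ 2) * ((L : ℝ) / K) ≤ (10 / q ^ 2) * (Real.log L / D) := by gcongr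
      _ = ((1 / 4096 : ℝ) / 2) * Real.log L := by rw [hD]; field_simp; norm_num
  have h6 : (L : ℝ) ^ (-((1 / 4096 : ℝ) / 2)) ≤ Real.exp (-(10 / q ^ 2) * ((L : ℝ) / K)) := by
    rw [Real.rpow_def_of_pos hL0]
    refine Real.exp_le_exp.mpr ?_
    linarith only [hx]
  have h7 : (L : ℝ) ^ (-(1 / 4096) : ℝ)
      = (L : ℝ) ^ (-((1 / 4096 : ℝ) / 2)) / (L : ℝ) ^ ((1 / 4096 : ℝ) / 2) := by
    rw [← Real.rpow_sub hL0]; congr 1; ring
  rw [h7]
  have h8 : 0 < (L : ℝ) ^ (-((1 / 4096 : ℝ) / 2)) := Real.rpow_pos_of_pos hL0 _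
  calc (L : ℝ) ^ (-((1 / 4096 : ℝ) / 2)) / (L : ℝ) ^ ((1 / 4096 : ℝ) / 2)
      ≤ (L : ℝ) ^ (-((1 / 4096 : ℝ) / 2)) / 2 :=
        div_le_div_of_nonneg_left h8.le (by norm_num) e3
    _ ≤ _ := div_le_div_of_nonneg_right h6 (by norm_num)

end Vale.Agent.P321.R4.H504
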