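import Vale.Agent.P321.R4.H504.Inv
import Vale.Agent.P321.R4.H504.Over

/-! # R2: comparison of blank products and the overlap with explicit constants -/

set_option linter.unusedSectionVars false

namespace Vale.Agent.P321.R4.H504

open Finset Polynomial
open Vale.Agent.P321 Vale.Agent.P321.Cr Vale.Agent.P321.Lt
open Vale.Agent.P321.R4.H101 (Pq StCore)

/-- comparison of blank products -/
theorem blank_const {q : ℝ} (hq0 : 0 < q) (hq1 : q < 1) :
    ∀ K L : ℕ, 1 ≤ K → 1 ≤ L →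
      MA.l1 ((Us q ((K : ℝ) / (K + 1) * (1 - q ^ 2)) ^ L * Eb q *
          Us q ((K : ℝ) / (K + 1) * (1 - q ^ 2)) ^ L) ^ (K + 1)
        - (U q ^ L * Eb q * U q ^ L) ^ K)
        ≤ ((2 * cc (min (q ^ 2) (1 - q ^ 2)) + 3) + cc (min q (1 - q))) / Real.sqrt K := by
  set s : ℝ := 1 - q ^ 2 with hs
  have hq2 : q ^ 2 < 1 := by nlinarith only [hq1, hq0]
  have hq2' : 0 < q ^ 2 := by positivity
  set ρ : ℝ := min (q ^ 2) (1 - q ^ 2) with hρ
  have hρ0 : 0 < ρ := lt_min hq2' (by linarith)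
  have hρ1 : ρ ≤ s := min_le_right _ _
  have hρ2 : ρ ≤ 1 - s := by rw [hs, sub_sub_cancel]; exact min_le_left _ _
  set ρ' : ℝ := min q (1 - q) with hρ'
  have hρ'0 : 0 < ρ' := lt_min hq0 (by linarith only [hq1])
  have hρ'1 : ρ' ≤ 1 - q := min_le_right _ _
  have hρ'2 : ρ' ≤ 1 - (1 - q) := by rw [sub_sub_cancel]; exact min_le_left _ _
  have c0 := cc_pos hρ0
  have c0' := cc_pos hρ'0
  intro K L hK hL
  have hKR : (1 : ℝ) ≤ K := by exact_mod_cast hK
  have hLR : (1 : ℝ) ≤ L := by exact_mod_cast hL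
  set θ : ℝ := (K : ℝ) / (K + 1) with hθ
  have hθ0 : 0 ≤ θ := by positivity
  have hθ1 : θ ≤ 1 := by rw [hθ, div_le_one (by positivity)]; linarith only []
  have hUs : U q = Us q s := (Us_U q).symm
  have hPU : MA.Prob (Us q s) := prob_Us hq0.le hq1.le (by linarith only [hq2]) (by linarith only [hq2'])
  have hPE : MA.Prob (Eb q) := by
    rw [Eb_eq]; exact prob_Us hq0.le hq1.le (by linarith only [hq1]) (by linarith only [hq0])
  -- commuting normal form
  have nf : ∀ s k, (Us q s ^ L * Eb q * Us q s ^ L) ^ k = Us q s ^ (2 * L * k) * Eb q ^ k := by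
    intro s k
    rw [blank_pow_eq, al, map_mul, map_pow, map_pow]
    have h1 : ∀ t, aeval (NN (nu q)) (cn t) = Us q t := fun t => al_cn q t
    rw [h1, h1, Eb_eq]
  rw [nf, hUs, nf]
  have step1 : MA.l1 (Us q (θ * s) ^ (2 * L * (K + 1)) - Us q s ^ (2 * L * K))
      ≤ (2 * cc ρ + 3) / Real.sqrt K := by
    have e1 : Us q (θ * s) ^ (2 * L * (K + 1)) = aeval (Us q s) (cn θ ^ (2 * L * (K + 1))) := by
      rw [map_pow, cn, map_add, map_mul, aeval_C, aeval_C, aeval_X,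
        Algebra.algebraMap_eq_smul_one, Algebra.algebraMap_eq_smul_one, smul_mul_assoc, one_mul,
        Us_tilt]
    have hPB := (PB.cn hθ0 hθ1).pow (2 * L * (K + 1))
    have hmean : ((2 * L * (K + 1) : ℕ) : ℝ) * θ = ((2 * L * K : ℕ) : ℝ) := by
      rw [hθ]; push_cast; (clear * - hK hL; field_simp)
    rw [hmean] at hPB
    have hvar : ((2 * L * (K + 1) : ℕ) : ℝ) * (θ * (1 - θ)) ≤ Real.sqrt (2 * L) ^ 2 := by
      rw [Real.sq_sqrt (by (clear * - hL; positivity)), ← mul_assoc, hmean]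
      have : 1 - θ = 1 / ((K : ℝ) + 1) := by rw [hθ]; field_simp; ring
      rw [this]
      push_cast
      rw [mul_one_div, div_le_iff₀ (by positivity)]
      linarith only []
    have h := (MA.str (G := FreeMonoid (Fin 3))).nrm_mix_sub_pow hPU c0.le
      (fun n => smooth_Us hq0.le hq1.le hρ0 hρ1 hρ2 n) (2 * L * K) hPB
      (Real.sqrt_pos.mpr (by positivity)) hvar
    rw [e1]
    refine (show MA.l1 _ ≤ _ from h).trans ?_
    rw [div_le_div_iff₀ (Real.sqrt_pos.mpr (by positivity)) (Real.sqrt_pos.mpr (by positivity)),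
      mul_assoc]
    refine mul_le_mul_of_nonneg_left ?_ (by positivity)
    rw [← Real.sqrt_mul (by positivity)]
    refine Real.sqrt_le_sqrt ?_
    push_cast
    linarith only []
  have step2 : MA.l1 (Eb q ^ K - Eb q ^ (K + 1)) ≤ cc ρ' / Real.sqrt K := by
    have e : Eb q ^ K - Eb q ^ (K + 1) = (1 - Us q (1 - q)) * Us q (1 - q) ^ K := by
      rw [Eb_eq, sub_mul, one_mul, ← pow_succ']
    rw [e]
    refine (smooth_Us hq0.le hq1.le hρ'0 hρ'1 hρ'2 K).trans ?_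
    refine div_le_div_of_nonneg_left c0'.le (Real.sqrt_pos.mpr (by positivity)) ?_
    exact Real.sqrt_le_sqrt (by linarith only [])
  refine (l1_mul_sub_mul _ _ _ _).trans ?_
  rw [l1_pow_prob hPE, l1_pow_prob hPU, mul_one, one_mul, add_div, MA.l1_sub_comm (Eb q ^ (K + 1))]
  exact add_le_add step1 step2

theorem core_bound {M1 : ℕ} (hM1 : 1 ≤ M1) {q : ℝ} (h0 : 0 < q) (h1 : q ≤ 1 / 2) :
    2 * Pq M1 q + ((2 * cc (min (q ^ 2) (1 - q ^ 2)) + 3) + cc (min q (1 - q)))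
      ≤ Pq (2 * M1 + 100) q := by
  have hq2 : 0 < q ^ 2 := by positivity
  have hq4 : q ^ 2 ≤ 1 / 4 := by nlinarith only [h0, h1]
  have m1 : min (q ^ 2) (1 - q ^ 2) = q ^ 2 := min_eq_left (by linarith)
  have m2 : min q (1 - q) = q := min_eq_left (by linarith)
  rw [m1, m2]
  set t : ℝ := 1 / q with ht
  have ht2 : 2 ≤ t := by rw [ht, le_div_iff₀ h0]; linarith
  have c1 : cc (q ^ 2) ≤ 2 * t := by
    rw [cc, ht]
    have h2 : q ≤ Real.sqrt (2 * q ^ 2) := Real.le_sqrt_of_sq_le (by nlinarith only [h0])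
    calc 2 / Real.sqrt (2 * q ^ 2) ≤ 2 / q := by gcongr
      _ = 2 * (1 / q) := by ring
  have c2 : cc q ≤ 2 * t := by
    rw [cc, ht]
    have h2 : q ≤ Real.sqrt (2 * q) := Real.le_sqrt_of_sq_le (by nlinarith only [h0, h1])
    calc 2 / Real.sqrt (2 * q) ≤ 2 / q := by gcongr
      _ = 2 * (1 / q) := by ring
  have hP1 : 1 ≤ Pq M1 q := Pq_ge_one hM1 h0 h1
  have hM : (1 : ℝ) ≤ M1 := by exact_mod_cast hM1
  have hr : (1 : ℝ) ≤ ((2 * M1 + 100 : ℕ) : ℝ) / q := by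
    rw [le_div_iff₀ h0]; push_cast; linarith
  have e1 : (((2 * M1 + 100 : ℕ) : ℝ) / q) ^ (M1 + 1) ≤ Pq (2 * M1 + 100) q := by
    unfold Pq
    exact pow_le_pow_right₀ hr (by omega)
  have e2 : Pq M1 q * (100 * t) ≤ (((2 * M1 + 100 : ℕ) : ℝ) / q) ^ (M1 + 1) := by
    rw [pow_succ]
    refine mul_le_mul ?_ ?_ (by positivity) (by positivity)
    · unfold Pq
      refine pow_le_pow_left₀ (by positivity) ?_ _
      gcongr
      push_cast
      linarith
    · rw [ht, mul_one_div]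
      gcongr
      push_cast
      linarith
  refine le_trans ?_ (e2.trans e1)
  nlinarith only [hP1, ht2, c1, c2]

/-- R2 -/
theorem stCore : StCore := by
  obtain ⟨M1, hM1, hI0⟩ := invisible_q
  refine ⟨2 * M1 + 100, by omega, fun q hq0 hqh => ?_⟩
  have hq1 : q < 1 := by linarith
  have hq2 : 0 < q ^ 2 := by positivity
  have hq2' : q ^ 2 < 1 := by nlinarith
  have hq4 : q ^ 2 ≤ 1 / 4 := by nlinarith only [hq0, hqh]
  set s0 : ℝ := q ^ 2 with hs0
  have hs00 : 0 < s0 := hq2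
  have hs01 : s0 ≤ q ^ 2 := le_rfl
  have hs02 : s0 ≤ (1 - q ^ 2) / 2 := by linarith only [hq4]
  have hI := hI0 q hq0 hqh
  have hB0 := blank_const hq0 hq1
  set C1 : ℝ := Pq M1 q with hC1d
  have hC1 : 0 < C1 := lt_of_lt_of_le one_pos (Pq_ge_one hM1 hq0 hqh)
  set C2 : ℝ := (2 * cc (min (q ^ 2) (1 - q ^ 2)) + 3) + cc (min q (1 - q)) with hC2d
  have hC2 : 0 < C2 := by
    have a1 : 0 < cc (min (q ^ 2) (1 - q ^ 2)) := cc_pos (lt_min hq2 (by linarith only [hq2']))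
    have a2 : 0 < cc (min q (1 - q)) := cc_pos (lt_min hq0 (by linarith only [hq1]))
    rw [hC2d]; positivity
  have hB : ∀ K L : ℕ, 1 ≤ K → 1 ≤ L →
      MA.l1 ((Us q ((K : ℝ) / (K + 1) * (1 - q ^ 2)) ^ L * Eb q *
          Us q ((K : ℝ) / (K + 1) * (1 - q ^ 2)) ^ L) ^ (K + 1)
        - (U q ^ L * Eb q * U q ^ L) ^ K) ≤ C2 / Real.sqrt K := hB0
  have hCC : 2 * C1 + C2 ≤ Pq (2 * M1 + 100) q := core_bound hM1 hq0 hqh
  intro K L hK hKL hsmall0
  have hsmall : (2 * C1 + C2) * (((K + 1 : ℕ) : ℝ) / L) ^ (1 / 8 : ℝ)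
      + (2 * C1 + C2) / Real.sqrt K ≤ 1 / 4 := by
    refine le_trans (add_le_add ?_ ?_) hsmall0
    · exact mul_le_mul_of_nonneg_right hCC (by positivity)
    · exact div_le_div_of_nonneg_right hCC (Real.sqrt_nonneg _)
  have hL : 1 ≤ L := by omega
  have hKR : (1 : ℝ) ≤ K := by exact_mod_cast hK
  have hL0 : (0 : ℝ) < L := by exact_mod_cast hL
  set θ : ℝ := (K : ℝ) / (K + 1) with hθ
  have hθ0 : 0 < θ := by rw [hθ]; positivity
  have hθ1 : θ ≤ 1 := by rw [hθ, div_le_one (by positivity)]; linarith only []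
  have hθ2 : 1 / 2 ≤ θ := by rw [hθ, div_le_div_iff₀ (by norm_num) (by positivity)]; linarith only [hKR]
  set s : ℝ := θ * (1 - q ^ 2) with hs
  have hs0' : 0 ≤ s := mul_nonneg hθ0.le (by linarith only [hs00, hs02])
  have hs1 : s ≤ 1 - q ^ 2 := by
    rw [hs]
    calc θ * (1 - q ^ 2) ≤ 1 * (1 - q ^ 2) := mul_le_mul_of_nonneg_right hθ1 (by linarith only [hs00, hs02])
      _ = _ := one_mul _
  have hs2 : s0 ≤ s := by
    refine hs02.trans ?_
    rw [hs]
    nlinarith only [hq2', hθ2]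
  set n : ℕ := 2 * L * (K + 1) with hn
  set u : ℕ := ⌈((n : ℝ) * s - 4 * Real.sqrt n)⌉₊ with hu
  set A : LA := cell q L L ^ K with hA
  set Bh : LA := (Us q s ^ L * E q * Us q s ^ L) ^ (K + 1) with hBh
  set T : LA := typ q s L (K + 1) u with hT
  set T' : LA := atyp q s L (K + 1) u with hT'
  have hTT : T + T' = Bh := typ_add_atyp q s L (K + 1) u
  have hTn : MA.nonneg T := typ_nonneg hq0.le hq1.le hs0' (by linarith only [hq2, hs1]) L (K + 1) u
  have hTn' : MA.nonneg T' := atyp_nonneg hq0.le hq1.le hs0' (by linarith only [hq2, hs1]) L (K + 1) u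
  have hT'm : MA.aug T' ≤ 1 / 64 := by
    refine atyp_aug_le hq0.le hq1.le hs0' (by linarith only [hq2, hs1]) L (K + 1) u ?_ (by positivity)
    intro j hj
    exact (Nat.lt_ceil.mp hj).le
  have hUs : MA.Prob (Us q s) := prob_Us hq0.le hq1.le hs0' (by linarith only [hq2, hs1])
  have hpA : MA.Prob A := L1Str.Prob.pow (prob_cell hq0.le hq1.le L L) K
  have hpB : MA.Prob Bh := L1Str.Prob.pow (L1Str.Prob.mul (L1Str.Prob.mul (L1Str.Prob.pow hUs L)
    (prob_E hq0.le hq1.le)) (L1Str.Prob.pow hUs L)) (K + 1)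
  -- distance between `A` and `Bh`
  have hAB : MA.l1 (A - Bh) ≤ 1 / 4 := by
    have d1 := hI (1 - q ^ 2) (by linarith only [hs00, hs02]) (by linarith only [hs01]) K L hK (by (clear * - hKL; omega))
    have d2 := hB K L hK hL
    have d3 := hI s hs2 (by linarith only [hs01, hs1]) (K + 1) L (by omega) hKL
    rw [Us_U] at d1
    have hA' : (U q ^ L * E q * U q ^ L) ^ K = A := rfl
    rw [hA'] at d1
    rw [← hBh] at d3
    rw [← hθ, ← hs] at d2
    rw [MA.l1_sub_comm] at d2 d3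
    have hx : ((K : ℝ) / L) ^ (1 / 8 : ℝ) ≤ (((K + 1 : ℕ) : ℝ) / L) ^ (1 / 8 : ℝ) := by
      refine Real.rpow_le_rpow (by (clear * - hK hL; positivity)) ?_ (by norm_num)
      refine div_le_div_of_nonneg_right ?_ hL0.le
      push_cast; linarith only []
    have t1 := (MA.str (G := FreeMonoid (Fin 3))).nrm_triangle A ((U q ^ L * Eb q * U q ^ L) ^ K) Bh
    have t2 := (MA.str (G := FreeMonoid (Fin 3))).nrm_triangle ((U q ^ L * Eb q * U q ^ L) ^ K)
      ((Us q s ^ L * Eb q * Us q s ^ L) ^ (K + 1)) Bh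
    simp only [MA.str_nrm] at t1 t2
    have h0 : 0 ≤ C2 * (((K + 1 : ℕ) : ℝ) / L) ^ (1 / 8 : ℝ) := by (clear * - hC2 hK hL; positivity)
    have h0' : 0 ≤ 2 * C1 / Real.sqrt K := by positivity
    have h1 : C1 * ((K : ℝ) / L) ^ (1 / 8 : ℝ) ≤ C1 * (((K + 1 : ℕ) : ℝ) / L) ^ (1 / 8 : ℝ) :=
      mul_le_mul_of_nonneg_left hx hC1.le
    have h2 : (2 * C1 + C2) / Real.sqrt K = 2 * C1 / Real.sqrt K + C2 / Real.sqrt K := add_div _ _ _
    rw [h2] at hsmall
    linarith only [h1, h0', h0, t2, t1, d3, d2, d1, hsmall]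
  -- the common part
  obtain ⟨m, hm0, hm1, hm2, hm3⟩ := MA.exists_min hpA.1 hTn
  have hTm : MA.l1 T = 1 - MA.aug T' := by
    have e1 : MA.aug T + MA.aug T' = 1 := by rw [← MA.aug_add, hTT]; exact hpB.aug
    rw [MA.l1_of_nonneg hTn]; linarith only [e1]
  have hAT : MA.l1 (A - T) ≤ 1 / 4 + MA.aug T' := by
    have e : A - T = (A - Bh) + T' := by rw [← hTT]; abel
    rw [e]
    refine (MA.l1_add _ _).trans ?_
    rw [MA.l1_of_nonneg hTn']
    linarith only [hAB]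
  have hml : 1 / 2 ≤ MA.l1 m := by
    have e1 : MA.l1 A = 1 := hpA.2
    rw [e1, hTm] at hm3
    linarith only [hAT, hm3, hT'm]
  set δ : ℝ := Real.exp (-(10 / q ^ 2) * ((L : ℝ) / K)) with hδ
  have hδ0 : 0 < δ := Real.exp_pos _
  have hδ1 : δ ≤ 1 := by
    rw [hδ]
    refine Real.exp_le_one_iff.mpr ?_
    have : 0 ≤ 10 / q ^ 2 * ((L : ℝ) / K) := by positivity
    linarith only [this]
  refine ⟨δ • m, MA.nonneg_smul hδ0.le hm0, ?_, ?_, ?_⟩
  · have h1 : MA.le m A := MA.le_iff.mpr hm1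
    refine MA.le_trans ?_ h1
    intro w
    rw [MonoidAlgebra.coeff_smul, Finsupp.smul_apply, smul_eq_mul]
    have := hm0 w
    linarith only [mul_nonneg (sub_nonneg.2 hδ1) (sub_nonneg.2 this)]
  · have h1 : MA.le m T := MA.le_iff.mpr hm2
    have h2 : MA.le (δ • m) (δ • T) := MA.le_smul hδ0.le h1
    have h3 : δ ≤ (q ^ 2 / (1 - s)) ^ (2 * L * (K + 1)) * ((1 - s) / (θ * q ^ 2)) ^ u :=
      rho_lower hq0 hq1 hK (by omega) hθ hs rfl (by
        rw [← hn]
        exact Nat.le_ceil _)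
    have h4 : MA.le (δ • T)
        (((q ^ 2 / (1 - s)) ^ (2 * L * (K + 1)) * ((1 - s) / (θ * q ^ 2)) ^ u) • T) := by
      intro w
      rw [MonoidAlgebra.coeff_smul, Finsupp.smul_apply, smul_eq_mul, MonoidAlgebra.coeff_smul,
        Finsupp.smul_apply, smul_eq_mul]
      exact mul_le_mul_of_nonneg_right h3 (hTn w)
    exact MA.le_trans h2 (MA.le_trans h4 (typ_le hq0 hq1 hθ0 hθ1 hs L (K + 1) u))
  · rw [MA.l1_smul, abs_of_pos hδ0]
    linarith only [mul_nonneg (sub_nonneg.2 hml) (le_of_lt (sub_pos.2 hδ0))]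

end Vale.Agent.P321.R4.H504
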