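import Vale.Agent.P321.R4.H101.Spec

/-! # R2, first half: invisibility of the marked letters with an explicit constant -/

set_option linter.unusedSectionVars false

namespace Vale.Agent.P321.R4.H504

open Finset Polynomial
open Vale.Agent.P321 Vale.Agent.P321.Cr Vale.Agent.P321.Lt
open Vale.Agent.P321.R4.H101 (Pq)

theorem invisible_const {q s0 : ℝ} (hq0 : 0 < q) (hq1 : q < 1) (hs0 : 0 < s0) :
    ∀ s : ℝ, s0 ≤ s → s ≤ 1 - s0 → ∀ K L : ℕ, 1 ≤ K → K ≤ L →
      MA.l1 ((Us q s ^ L * E q * Us q s ^ L) ^ K - (Us q s ^ L * Eb q * Us q s ^ L) ^ K)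
        ≤ (Real.sqrt (3 * (24 * ((1 - q) ^ 2 * kap (nu q) 0) * (cc s0 * (1 + 12 / s0 ^ 2)) * cc s0))
          + 2 + 2 * (24 * ((1 - q) ^ 2 * kap (nu q) 0) * (cc s0 * (1 + 12 / s0 ^ 2))))
          * ((K : ℝ) / L) ^ (1 / 8 : ℝ) := by
  set p : ℝ := 1 - q with hp
  set M : ℝ := p ^ 2 * kap (nu q) 0 with hM
  have hν := law_nu hq0 hq1
  have hM0 : 0 ≤ M := mul_nonneg (sq_nonneg _) (kap_nonneg hν 0)
  set c := cc s0 with hc
  have hc0 : 0 < c := cc_pos hs0
  set R : ℝ := c * (1 + 12 / s0 ^ 2) with hR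
  have hR0 : 0 < R := by (clear * - hc0 hs0; positivity)
  set C3 : ℝ := 24 * M * R with hC3
  have hC30 : 0 ≤ C3 := by (clear * - hM0 hc0 hs0; positivity)
  set C2 : ℝ := 24 * M * R * c with hC2
  have hC20 : 0 ≤ C2 := by (clear * - hM0 hc0 hs0; positivity)
  intro s hs1 hs2 K L hK hKL
  have hL : 1 ≤ L := le_trans hK hKL
  have hKR : (1 : ℝ) ≤ K := by exact_mod_cast hK
  have hLR : (1 : ℝ) ≤ L := by exact_mod_cast hL
  have hKLR : (K : ℝ) ≤ L := by exact_mod_cast hKL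
  have hL0 : (0 : ℝ) < L := by linarith only [hLR]
  have hK0 : (0 : ℝ) < K := by linarith only [hKR]
  set x : ℝ := (K : ℝ) / L with hx
  have hx0 : 0 < x := by (clear * - hK hL; positivity)
  have hx1 : x ≤ 1 := by rw [hx, div_le_one hL0]; exact hKLR
  have hs : 0 < s := by linarith only [hs0, hs1]
  have hs' : s ≤ 1 := by linarith only [hs0, hs2]
  have hpar : Par s p s0 L L := ⟨hs0, hs1, by linarith only [hs2], by linarith only [hq1], by linarith only [hq0], hL, le_rfl, by omega⟩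
  have hx8 : 0 < x ^ (1 / 8 : ℝ) := Real.rpow_pos_of_pos hx0 _
  have hx28 : Real.sqrt x ≤ x ^ (1 / 8 : ℝ) := by
    rw [Real.sqrt_eq_rpow]
    exact Real.rpow_le_rpow_of_exponent_ge hx0 hx1 (by norm_num)
  have hRR : RR s0 s L ≤ R / Real.sqrt L := by
    rw [hR, hc]
    unfold RR
    have : 0 ≤ cc s0 := (cc_pos hs0).le
    (clear * - hs0 hs1 hc0 hL; gcongr)
  have hpU : MA.Prob (Us q s) := prob_Us hq0.le hq1.le hs.le hs'
  have hpG : MA.Prob (Us q s ^ L * E q * Us q s ^ L) :=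
    L1Str.Prob.mul (L1Str.Prob.mul (L1Str.Prob.pow hpU _) (prob_E hq0.le hq1.le))
      (L1Str.Prob.pow hpU _)
  have hpG' : MA.Prob (Us q s ^ L * Eb q * Us q s ^ L) := by
    rw [Eb_eq]
    exact L1Str.Prob.mul (L1Str.Prob.mul (L1Str.Prob.pow hpU _)
      (prob_Us hq0.le hq1.le (by linarith only [hq1]) (by linarith only [hq0]))) (L1Str.Prob.pow hpU _)
  by_cases hsm : 24 * M * RR s0 s L * Real.sqrt K ≤ 1
  · -- main case
    set G := (Us q s ^ L * E q * Us q s ^ L) ^ K with hG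
    set G' := (Us q s ^ L * Eb q * Us q s ^ L) ^ K with hG'
    have hip : ip (nu q) (G - G') (G - G') ≤ C2 / L := by
      have h := ip_diff_le (a := 0) hν hpar hK hKL hsm
      have eG : G = al (nu q) (cn s ^ L) * EE (nu q) p 0 * HH (nu q) s p 0 L (K - 1) := by
        rw [hG, ← cell_pow_eq, Nat.sub_add_cancel hK]
      rw [← eG, ← blank_pow_eq, ← hG'] at h
      refine h.trans ?_
      have hsL : 0 < Real.sqrt (L : ℝ) := Real.sqrt_pos.mpr hL0
      have hsL2 : Real.sqrt (L : ℝ) * Real.sqrt L = L := Real.mul_self_sqrt hL0.le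
      calc 24 * M * RR s0 s L * (cc s0 / Real.sqrt L)
          ≤ 24 * M * (R / Real.sqrt L) * (c / Real.sqrt L) := by (clear * - hRR hM0 hc0 hL; gcongr)
        _ = C2 / (Real.sqrt L * Real.sqrt L) := by rw [hC2]; (clear * - hc0 hL hR0; field_simp)
        _ = C2 / L := by rw [hsL2]
    have hgG : gen G = (cn s ^ (2 * L) * cn p) ^ K := by
      rw [hG, map_pow, map_mul, map_mul, map_pow, gen_Us hq0.le, gen_E, two_mul, pow_add]
      congr 1; ring
    have hgG' : gen G' = (cn s ^ (2 * L) * cn p) ^ K := by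
      rw [hG', map_pow, map_mul, map_mul, map_pow, Eb_eq, gen_Us hq0.le, gen_Us hq0.le, two_mul,
        pow_add]
      congr 1; ring
    have hPB := (((PB.cn hs.le hs').pow (2 * L)).mul (PB.cn hpar.p0 hpar.p1)).pow K
    set a : ℝ := L * x ^ (1 / 4 : ℝ) with ha
    have hx4 : x ≤ x ^ (1 / 4 : ℝ) := by
      conv_lhs => rw [← Real.rpow_one x]
      exact Real.rpow_le_rpow_of_exponent_ge hx0 hx1 (by norm_num)
    have ha1 : 1 ≤ a := by
      have : (K : ℝ) = L * x := by rw [hx]; (clear * - hL hK; field_simp)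
      calc (1 : ℝ) ≤ K := hKR
        _ = L * x := this
        _ ≤ a := mul_le_mul_of_nonneg_left hx4 hL0.le
    have hmain := l1_diff_le hν (MA.nonneg_pow hpG.1 K) (MA.nonneg_pow hpG'.1 K) hPB hgG hgG' ha1 ?_ hip
    · refine hmain.trans ?_
      have t1 : Real.sqrt (3 * a * (C2 / L)) = Real.sqrt (3 * C2) * x ^ (1 / 8 : ℝ) := by
        have : 3 * a * (C2 / L) = (3 * C2) * x ^ (1 / 4 : ℝ) := by rw [ha]; (clear * - hL hx0; field_simp)
        rw [this, Real.sqrt_mul (by (clear * - hM0 hc0 hs0; positivity)), Real.sqrt_eq_rpow (x ^ (1 / 4 : ℝ)),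
          ← Real.rpow_mul hx0.le]
        norm_num
      have hvar : (K : ℝ) * (((2 * L : ℕ) : ℝ) * (s * (1 - s)) + p * (1 - p)) ≤ K * L := by
        refine mul_le_mul_of_nonneg_left ?_ hK0.le
        have q1 := quarter s
        have q2 := quarter p
        push_cast
        nlinarith only [hLR, q2, q1]
      have t2 : (K : ℝ) * (((2 * L : ℕ) : ℝ) * (s * (1 - s)) + p * (1 - p)) / a ^ 2 ≤ Real.sqrt x := by
        have ha2 : a ^ 2 = L ^ 2 * Real.sqrt x := by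
          rw [ha, mul_pow, ← Real.rpow_natCast (x ^ (1 / 4 : ℝ)) 2, ← Real.rpow_mul hx0.le,
            Real.sqrt_eq_rpow]
          norm_num
        have hsx : 0 < Real.sqrt x := Real.sqrt_pos.mpr hx0
        rw [div_le_iff₀ (by (clear * - hL hK; positivity)), ha2]
        have : Real.sqrt x * (L ^ 2 * Real.sqrt x) = K * L := by
          have : Real.sqrt x * Real.sqrt x = x := Real.mul_self_sqrt hx0.le
          calc Real.sqrt x * ((L : ℝ) ^ 2 * Real.sqrt x) = L ^ 2 * (Real.sqrt x * Real.sqrt x) := by ring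
            _ = L ^ 2 * x := by rw [this]
            _ = K * L := by rw [hx]; field_simp
        rw [this]
        exact hvar
      rw [t1]
      have h5 : 0 ≤ 2 * C3 * x ^ (1 / 8 : ℝ) := by (clear * - hM0 hc0 hs0 hK hL; positivity)
      calc Real.sqrt (3 * C2) * x ^ (1 / 8 : ℝ)
            + 2 * ((K : ℝ) * (((2 * L : ℕ) : ℝ) * (s * (1 - s)) + p * (1 - p)) / a ^ 2)
          ≤ Real.sqrt (3 * C2) * x ^ (1 / 8 : ℝ) + 2 * x ^ (1 / 8 : ℝ) := by
            have := t2.trans hx28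
            linarith only [hx28, t2]
        _ ≤ (Real.sqrt (3 * C2) + 2 + 2 * C3) * x ^ (1 / 8 : ℝ) := by linarith only [h5]
    · have := hpar.p0
      (clear * - hK hL hs hq1; positivity)
  · -- trivial case
    rw [not_le] at hsm
    have h2 : MA.l1 ((Us q s ^ L * E q * Us q s ^ L) ^ K - (Us q s ^ L * Eb q * Us q s ^ L) ^ K) ≤ 2 := by
      have := (MA.str (G := FreeMonoid (Fin 3))).nrm_sub ((Us q s ^ L * E q * Us q s ^ L) ^ K)
        ((Us q s ^ L * Eb q * Us q s ^ L) ^ K)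
      have e1 := (L1Str.Prob.pow hpG K).2
      have e2 := (L1Str.Prob.pow hpG' K).2
      rw [e1, e2] at this
      refine this.trans ?_
      norm_num
    have h3 : 1 ≤ C3 * Real.sqrt x := by
      have hsL : 0 < Real.sqrt (L : ℝ) := Real.sqrt_pos.mpr hL0
      have : Real.sqrt x = Real.sqrt K / Real.sqrt L := by rw [hx, Real.sqrt_div hK0.le]
      rw [this]
      calc (1 : ℝ) ≤ 24 * M * RR s0 s L * Real.sqrt K := hsm.le
        _ ≤ 24 * M * (R / Real.sqrt L) * Real.sqrt K := by (clear * - hRR hM0 hK; gcongr)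
        _ = C3 * (Real.sqrt K / Real.sqrt L) := by rw [hC3]; ring
    have h4 : 0 ≤ Real.sqrt (3 * C2) * x ^ (1 / 8 : ℝ) := by (clear * - hK hL; positivity)
    have h5 : C3 * Real.sqrt x ≤ C3 * x ^ (1 / 8 : ℝ) := mul_le_mul_of_nonneg_left hx28 hC30
    calc _ ≤ (2 : ℝ) := h2
      _ ≤ 2 * (C3 * x ^ (1 / 8 : ℝ)) := by linarith only [h5, h3]
      _ ≤ (Real.sqrt (3 * C2) + 2 + 2 * C3) * x ^ (1 / 8 : ℝ) := by linarith only [hx8, h4]

theorem kap_nu {q : ℝ} (h0 : 0 < q) : kap (nu q) 0 = 1 / q := by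
  have h : nu q 0 = q / (1 + q) := rfl
  rw [kap, h]
  field_simp
  ring

theorem invisible_bound {q : ℝ} (h0 : 0 < q) (h1 : q ≤ 1 / 2) :
    Real.sqrt (3 * (24 * ((1 - q) ^ 2 * kap (nu q) 0) * (cc (q ^ 2) * (1 + 12 / (q ^ 2) ^ 2))
      * cc (q ^ 2))) + 2 + 2 * (24 * ((1 - q) ^ 2 * kap (nu q) 0)
      * (cc (q ^ 2) * (1 + 12 / (q ^ 2) ^ 2))) ≤ Pq 5000 q := by
  set t : ℝ := 1 / q with ht
  have ht2 : 2 ≤ t := by rw [ht, le_div_iff₀ h0]; linarith
  have ht0 : 0 < t := by linarith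
  have hM : (1 - q) ^ 2 * kap (nu q) 0 ≤ t := by
    rw [kap_nu h0, ← ht]
    have : (1 - q) ^ 2 ≤ 1 := by nlinarith only [h0, h1]
    calc (1 - q) ^ 2 * t ≤ 1 * t := by gcongr
      _ = t := one_mul _
  have hM0 : 0 ≤ (1 - q) ^ 2 * kap (nu q) 0 := by rw [kap_nu h0]; positivity
  have hc : cc (q ^ 2) ≤ 2 * t := by
    rw [cc, ht]
    have h2 : q ≤ Real.sqrt (2 * q ^ 2) := Real.le_sqrt_of_sq_le (by nlinarith only [h0])
    calc 2 / Real.sqrt (2 * q ^ 2) ≤ 2 / q := by gcongr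
      _ = 2 * (1 / q) := by ring
  have hc0 : 0 ≤ cc (q ^ 2) := (cc_pos (by positivity)).le
  have hR : 1 + 12 / (q ^ 2) ^ 2 ≤ 13 * t ^ 4 := by
    have h3 : 12 / (q ^ 2) ^ 2 = 12 * t ^ 4 := by rw [ht]; field_simp
    rw [h3]
    have h4 : (1 : ℝ) ≤ t ^ 4 := one_le_pow₀ (by linarith)
    linarith
  have hR0 : 0 ≤ 1 + 12 / (q ^ 2) ^ 2 := by positivity
  set m := (1 - q) ^ 2 * kap (nu q) 0 with hm
  set c := cc (q ^ 2) with hcc
  set r := 1 + 12 / (q ^ 2) ^ 2 with hr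
  have e1 : 24 * m * (c * r) ≤ 624 * t ^ 6 := by
    calc 24 * m * (c * r) ≤ 24 * t * (2 * t * (13 * t ^ 4)) := by gcongr
      _ = 624 * t ^ 6 := by ring
  have e10 : 0 ≤ 24 * m * (c * r) := by positivity
  have e2 : 3 * (24 * m * (c * r) * c) ≤ 3744 * t ^ 7 := by
    calc 3 * (24 * m * (c * r) * c) ≤ 3 * (624 * t ^ 6 * (2 * t)) := by gcongr
      _ = 3744 * t ^ 7 := by ring
  have e20 : 0 ≤ 3 * (24 * m * (c * r) * c) := by positivity
  have e3 : Real.sqrt (3 * (24 * m * (c * r) * c)) ≤ 1 + 3744 * t ^ 7 := by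
    rw [Real.sqrt_le_left (by positivity)]
    have h5 : 0 ≤ t ^ 7 := by positivity
    nlinarith only [e2, h5]
  have e4 : t ^ 6 ≤ t ^ 7 := pow_le_pow_right₀ (by linarith) (by norm_num)
  have e5 : (1 : ℝ) ≤ t ^ 7 := one_le_pow₀ (by linarith)
  have e6 : 4996 * t ^ 7 ≤ Pq 5000 q := by
    have h6 : (1 : ℝ) ≤ ((5000 : ℕ) : ℝ) / q := by
      rw [le_div_iff₀ h0]; push_cast; linarith
    have h7 : (((5000 : ℕ) : ℝ) / q) ^ 7 ≤ Pq 5000 q := by
      unfold Pq
      exact pow_le_pow_right₀ h6 (by norm_num)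
    refine le_trans ?_ h7
    have h8 : (((5000 : ℕ) : ℝ) / q) ^ 7 = 5000 ^ 7 * t ^ 7 := by
      rw [ht, div_pow, div_pow]; push_cast; ring
    rw [h8]
    have h9 : 0 ≤ t ^ 7 := by positivity
    refine mul_le_mul_of_nonneg_right (by norm_num) h9
  linarith only [e1, e3, e4, e5, e6]

theorem invisible_q : ∃ M : ℕ, 1 ≤ M ∧ ∀ q : ℝ, 0 < q → q ≤ 1 / 2 → ∀ s : ℝ, q ^ 2 ≤ s →
    s ≤ 1 - q ^ 2 → ∀ K L : ℕ, 1 ≤ K → K ≤ L →
      MA.l1 ((Us q s ^ L * E q * Us q s ^ L) ^ K - (Us q s ^ L * Eb q * Us q s ^ L) ^ K)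
        ≤ Pq M q * ((K : ℝ) / L) ^ (1 / 8 : ℝ) := by
  refine ⟨5000, by norm_num, fun q h0 h1 s hs1 hs2 K L hK hKL => ?_⟩
  refine (invisible_const h0 (by linarith) (by positivity) s hs1 hs2 K L hK hKL).trans ?_
  exact mul_le_mul_of_nonneg_right (invisible_bound h0 h1) (by positivity)

end Vale.Agent.P321.R4.H504
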